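import Vale.Agent.P036.AE.Core

/-!
P036: few short differences give a small triangle; the number of short differences of a set with
small doubling.
-/

open scoped Pointwise

namespace Vale.Agent.P036.AE

/-- the cells that contain points -/
noncomputable def cells (k : ℕ) (P : Finset (ℝ × ℝ)) : Finset (ℤ × ℤ) := P.image (cell k)

theorem cells_le {k : ℕ} {P : Finset (ℝ × ℝ)} (hP : InSquare P) :
    (cells k P).card ≤ (k + 1) ^ 2 := by
  have hsub : cells k P ⊆ Finset.Icc (0 : ℤ) k ×ˢ Finset.Icc (0 : ℤ) k := by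
    intro c hc
    obtain ⟨p, hp, rfl⟩ := Finset.mem_image.1 hc
    obtain ⟨⟨a1, a2⟩, a3, a4⟩ := hP p hp
    have hk : (0 : ℝ) ≤ k := by positivity
    rw [Finset.mem_product, Finset.mem_Icc, Finset.mem_Icc]
    unfold cell
    simp only
    refine ⟨⟨Int.floor_nonneg.2 (by positivity), ?_⟩, ⟨Int.floor_nonneg.2 (by positivity), ?_⟩⟩
    · have h1 : (k : ℝ) * p.1 ≤ ((k : ℤ) : ℝ) := by push_cast; nlinarith
      exact (Int.floor_le_floor h1).trans (by rw [Int.floor_intCast])
    · have h1 : (k : ℝ) * p.2 ≤ ((k : ℤ) : ℝ) := by push_cast; nlinarith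
      exact (Int.floor_le_floor h1).trans (by rw [Int.floor_intCast])
  refine (Finset.card_le_card hsub).trans ?_
  rw [Finset.card_product, Int.card_Icc]
  have : ((k : ℤ) + 1 - 0).toNat = k + 1 := by omega
  rw [this, sq]

/-- points in the same cell are close -/
theorem cell_close {k : ℕ} (hk : 0 < k) {p q : ℝ × ℝ} (h : cell k p = cell k q) :
    |(q - p).1| < 1 / k ∧ |(q - p).2| < 1 / k := by
  have hk0 : (0 : ℝ) < k := by exact_mod_cast hk
  unfold cell at h
  obtain ⟨h1, h2⟩ := Prod.mk.inj h
  have key : ∀ x y : ℝ, ⌊(k : ℝ) * x⌋ = ⌊(k : ℝ) * y⌋ → |y - x| < 1 / k := by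
    intro x y hxy
    have h := Int.abs_sub_lt_one_of_floor_eq_floor hxy
    rw [← mul_sub, abs_mul, abs_of_pos hk0, abs_sub_comm] at h
    rw [lt_div_iff₀ hk0]
    linarith
  exact ⟨key _ _ h1, key _ _ h2⟩

theorem near_count (k : ℕ) (P : Finset (ℝ × ℝ)) :
    P.card ^ 2 ≤ (cells k P).card * ((near k P).card + P.card) := by
  classical
  have h1 : P.card = ∑ c ∈ cells k P, (P.filter (fun p => cell k p = c)).card :=
    Finset.card_eq_sum_card_fiberwise (fun p hp => Finset.mem_image_of_mem _ hp)
  have h2 : ((P ×ˢ P).filter (fun e => cell k e.1 = cell k e.2)).card =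
      ∑ c ∈ cells k P, (P.filter (fun p => cell k p = c)).card ^ 2 := by
    rw [Finset.card_eq_sum_card_fiberwise (t := cells k P) (f := fun e => cell k e.1) (by
      intro e he
      exact Finset.mem_image_of_mem _ (Finset.mem_product.1 (Finset.mem_filter.1 he).1).1)]
    refine Finset.sum_congr rfl fun c _ => ?_
    rw [sq, ← Finset.card_product]
    congr 1
    ext e
    simp only [Finset.mem_filter, Finset.mem_product]
    constructor
    · rintro ⟨⟨⟨a, b⟩, h⟩, rfl⟩
      exact ⟨⟨a, rfl⟩, b, h.symm⟩
    · rintro ⟨⟨a, h⟩, b, h'⟩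
      exact ⟨⟨⟨a, b⟩, h.trans h'.symm⟩, h⟩
  have h3 : ((P ×ˢ P).filter (fun e => cell k e.1 = cell k e.2)).card ≤
      (near k P).card + P.card := by
    have hsub : (P ×ˢ P).filter (fun e => cell k e.1 = cell k e.2) ⊆
        near k P ∪ P.image (fun p => (p, p)) := by
      intro e he
      rw [Finset.mem_filter, Finset.mem_product] at he
      rw [Finset.mem_union]
      by_cases h : e.1 = e.2
      · right
        rw [Finset.mem_image]
        exact ⟨e.1, he.1.1, Prod.ext rfl h⟩
      · left
        unfold near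
        rw [Finset.mem_filter, Finset.mem_product]
        exact ⟨he.1, he.2, h⟩
    refine (Finset.card_le_card hsub).trans ((Finset.card_union_le _ _).trans ?_)
    exact Nat.add_le_add_left Finset.card_image_le _
  have h4 : (∑ c ∈ cells k P, (P.filter (fun p => cell k p = c)).card) ^ 2 ≤
      (cells k P).card * ∑ c ∈ cells k P, (P.filter (fun p => cell k p = c)).card ^ 2 :=
    sq_sum_le_card_mul_sum_sq
  calc P.card ^ 2 = (∑ c ∈ cells k P, (P.filter (fun p => cell k p = c)).card) ^ 2 := by
        rw [← h1]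
    _ ≤ (cells k P).card * ∑ c ∈ cells k P, (P.filter (fun p => cell k p = c)).card ^ 2 := h4
    _ ≤ (cells k P).card * ((near k P).card + P.card) := by
        rw [← h2]
        exact Nat.mul_le_mul_left _ h3

/-- **few short differences give a small triangle** -/
theorem has_of_few {P : Finset (ℝ × ℝ)} (hP : InSquare P) {k : ℕ} (hk : 0 < k)
    (hc : 2 * (cells k P).card ≤ P.card) {b : ℝ} (hb : 3 ≤ b)
    (hM : 2 * ((cells k P).card : ℝ) * (short k P).card * b ≤ (P.card : ℝ) ^ 2)
    (hne : P.Nonempty) :
    Has P (2 / (k * b)) := by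
  classical
  have hk0 : (0 : ℝ) < k := by exact_mod_cast hk
  have hn0 : (0 : ℝ) < P.card := by exact_mod_cast hne.card_pos
  have hc0 : (0 : ℝ) < (cells k P).card := by
    exact_mod_cast Finset.card_pos.2 (hne.image _)
  have h1 : (P.card : ℝ) ^ 2 ≤ 2 * (cells k P).card * (near k P).card := by
    have h := near_count k P
    have h' : (P.card : ℝ) ^ 2 ≤ (cells k P).card * ((near k P).card + P.card) := by
      exact_mod_cast h
    have hc' : 2 * ((cells k P).card : ℝ) ≤ P.card := by exact_mod_cast hc
    nlinarith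
  have hnear : (near k P).Nonempty := by
    rw [← Finset.card_pos]
    by_contra hcon
    have h0 : (near k P).card = 0 := by omega
    rw [h0] at h1
    push_cast at h1
    nlinarith [sq_pos_of_pos hn0]
  have h2 : ((short k P).card : ℝ) * b ≤ (near k P).card := by
    have h3 : 2 * ((cells k P).card : ℝ) * ((short k P).card * b) ≤
        2 * (cells k P).card * (near k P).card := by
      calc 2 * ((cells k P).card : ℝ) * ((short k P).card * b) =
          2 * ((cells k P).card : ℝ) * (short k P).card * b := by ring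
        _ ≤ (P.card : ℝ) ^ 2 := hM
        _ ≤ _ := h1
    exact le_of_mul_le_mul_left h3 (by positivity)
  obtain ⟨d, hd, hfib⟩ := Finset.exists_le_card_fiber_of_nsmul_le_card_of_maps_to
    (s := near k P) (t := short k P) (f := fun e => e.2 - e.1) (b := b)
    (fun e he => Finset.mem_image_of_mem _ he) (hnear.image _)
    (by rw [nsmul_eq_mul]; exact h2)
  obtain ⟨e0, he0, hed⟩ := Finset.mem_image.1 hd
  unfold near at he0
  rw [Finset.mem_filter] at he0
  have hd0 : d ≠ 0 := by
    rw [← hed]
    intro h
    exact he0.2.2 (sub_eq_zero.1 h).symm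
  have hdk := cell_close hk he0.2.1
  rw [hed] at hdk
  have hT : ((near k P).filter (fun e => e.2 - e.1 = d)).card ≤
      (P.filter (fun p => p + d ∈ P)).card := by
    refine Finset.card_le_card_of_injOn (fun e => e.1) ?_ ?_
    · intro e he
      rw [Finset.mem_coe, Finset.mem_filter] at he
      obtain ⟨he1, he2⟩ := he
      unfold near at he1
      rw [Finset.mem_filter, Finset.mem_product] at he1
      rw [Finset.mem_coe, Finset.mem_filter]
      refine ⟨he1.1.1, ?_⟩
      rw [← he2]
      have : e.1 + (e.2 - e.1) = e.2 := by abel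
      rw [this]
      exact he1.1.2
    · intro e he e' he' hee
      rw [Finset.mem_coe, Finset.mem_filter] at he he'
      simp only at hee
      have h2 : e.2 = e'.2 := by
        have a1 : e.2 = d + e.1 := by rw [← he.2]; abel
        have a2 : e'.2 = d + e'.1 := by rw [← he'.2]; abel
        rw [a1, a2, hee]
      exact Prod.ext hee h2
  have hTb : b ≤ ((P.filter (fun p => p + d ∈ P)).card : ℝ) :=
    hfib.trans (by exact_mod_cast hT)
  have hT3 : 3 ≤ (P.filter (fun p => p + d ∈ P)).card := by
    have : (3 : ℝ) ≤ ((P.filter (fun p => p + d ∈ P)).card : ℝ) := hb.trans hTb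
    exact_mod_cast this
  have := has_of_popular hP hd0 (h := 1 / k) (by positivity) hdk.1.le hdk.2.le hT3
  refine this.mono (Finset.Subset.refl _) ?_
  have hb0 : 0 < b := by linarith
  have hT0 : (0 : ℝ) < ((P.filter (fun p => p + d ∈ P)).card : ℝ) := by linarith
  rw [div_le_div_iff₀ hT0 (by positivity)]
  have e : 2 * (1 / (k : ℝ)) * (k * b) = 2 * b := by field_simp
  rw [e]
  linarith

/-- the number of short differences -/
theorem short_mul_cells (A : Finset (ℝ × ℝ)) {k : ℕ} (hk : 0 < k) :
    (short k A).card * (cells k A).card ≤ 9 * ((A - A) + A).card := by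
  classical
  have hk0 : (0 : ℝ) < k := by exact_mod_cast hk
  -- a residue class of cells
  set R : Finset (ℤ × ℤ) := Finset.Icc (0 : ℤ) 2 ×ˢ Finset.Icc (0 : ℤ) 2 with hR
  have hRcard : R.card = 9 := by
    rw [hR, Finset.card_product, Int.card_Icc]
    rfl
  set ρ : ℤ × ℤ → ℤ × ℤ := fun c => (c.1 % 3, c.2 % 3) with hρ
  have hmaps : ∀ c ∈ cells k A, ρ c ∈ R := by
    intro c _
    rw [hR, hρ, Finset.mem_product, Finset.mem_Icc, Finset.mem_Icc]
    simp only
    omega
  obtain ⟨y, -, hy⟩ := Finset.exists_le_card_fiber_of_nsmul_le_card_of_maps_to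
    (s := cells k A) (t := R) (f := ρ) (b := ((cells k A).card : ℝ) / 9) hmaps
    (Finset.card_pos.1 (by rw [hRcard]; norm_num))
    (by rw [hRcard, nsmul_eq_mul]; push_cast; linarith)
  set C := (cells k A).filter (fun c => ρ c = y) with hC
  -- representatives
  have hrep : ∀ c : ℤ × ℤ, ∃ p : ℝ × ℝ, c ∈ cells k A → p ∈ A ∧ cell k p = c := by
    intro c
    by_cases hc : c ∈ cells k A
    · obtain ⟨p, hp, hpc⟩ := Finset.mem_image.1 hc
      exact ⟨p, fun _ => ⟨hp, hpc⟩⟩
    · exact ⟨0, fun h => absurd h hc⟩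
  choose s hs using hrep
  have hinj : ((short k A) ×ˢ C).card ≤ ((A - A) + A).card := by
    refine Finset.card_le_card_of_injOn (fun e => e.1 + s e.2) ?_ ?_
    · intro e he
      rw [Finset.mem_coe, Finset.mem_product] at he
      rw [Finset.mem_coe]
      refine Finset.add_mem_add ?_ (hs e.2 (Finset.mem_filter.1 he.2).1).1
      obtain ⟨f, hf, hfe⟩ := Finset.mem_image.1 he.1
      unfold near at hf
      rw [Finset.mem_filter, Finset.mem_product] at hf
      rw [← hfe]
      exact Finset.sub_mem_sub hf.1.2 hf.1.1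
    · intro e he e' he' hee
      rw [Finset.mem_coe, Finset.mem_product] at he he'
      simp only at hee
      have hb : ∀ d ∈ short k A, |d.1| < 1 / k ∧ |d.2| < 1 / k := by
        intro d hd
        obtain ⟨f, hf, hfe⟩ := Finset.mem_image.1 hd
        unfold near at hf
        rw [Finset.mem_filter] at hf
        have := cell_close hk hf.2.1
        rw [hfe] at this
        exact this
      obtain ⟨a1, a2⟩ := hb e.1 he.1
      obtain ⟨b1, b2⟩ := hb e'.1 he'.1
      have hcell : e.2 = e'.2 := by
        have c1 := (hs e.2 (Finset.mem_filter.1 he.2).1).2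
        have c2 := (hs e'.2 (Finset.mem_filter.1 he'.2).1).2
        have r1 : ρ e.2 = ρ e'.2 :=
          (Finset.mem_filter.1 he.2).2.trans (Finset.mem_filter.1 he'.2).2.symm
        rw [hρ] at r1
        obtain ⟨r1a, r1b⟩ := Prod.mk.inj r1
        have key : ∀ x x' u u' : ℝ, |u| < 1 / k → |u'| < 1 / k → u + x = u' + x' →
            |⌊(k : ℝ) * x⌋ - ⌊(k : ℝ) * x'⌋| < 3 := by
          intro x x' u u' hu hu' h
          have h1 : x - x' = u' - u := by linarith
          have h2 : |(k : ℝ) * x - k * x'| < 2 := by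
            rw [← mul_sub, h1, abs_mul, abs_of_pos hk0]
            have h3 : |u' - u| < 2 / k := by
              have := abs_sub u' u
              have h4 : (2 : ℝ) / k = 1 / k + 1 / k := by ring
              rw [h4]
              linarith
            rw [lt_div_iff₀ hk0] at h3
            linarith
          rw [abs_lt] at h2 ⊢
          have f1 := Int.floor_le ((k : ℝ) * x)
          have f2 := Int.lt_floor_add_one ((k : ℝ) * x)
          have f3 := Int.floor_le ((k : ℝ) * x')
          have f4 := Int.lt_floor_add_one ((k : ℝ) * x')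
          constructor
          · have : (-3 : ℝ) < (⌊(k : ℝ) * x⌋ : ℝ) - ⌊(k : ℝ) * x'⌋ := by linarith
            exact_mod_cast this
          · have : (⌊(k : ℝ) * x⌋ : ℝ) - ⌊(k : ℝ) * x'⌋ < 3 := by linarith
            exact_mod_cast this
        have k1 := key (s e.2).1 (s e'.2).1 e.1.1 e'.1.1 a1 b1 (congrArg Prod.fst hee)
        have k2 := key (s e.2).2 (s e'.2).2 e.1.2 e'.1.2 a2 b2 (congrArg Prod.snd hee)
        have d1 : e.2.1 = ⌊(k : ℝ) * (s e.2).1⌋ := by
          conv_lhs => rw [← c1]
          rfl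
        have d2 : e.2.2 = ⌊(k : ℝ) * (s e.2).2⌋ := by
          conv_lhs => rw [← c1]
          rfl
        have d3 : e'.2.1 = ⌊(k : ℝ) * (s e'.2).1⌋ := by
          conv_lhs => rw [← c2]
          rfl
        have d4 : e'.2.2 = ⌊(k : ℝ) * (s e'.2).2⌋ := by
          conv_lhs => rw [← c2]
          rfl
        rw [← d1, ← d3, abs_lt] at k1
        rw [← d2, ← d4, abs_lt] at k2
        exact Prod.ext (by omega) (by omega)
      refine Prod.ext ?_ hcell
      rw [hcell] at hee
      exact add_right_cancel hee
  rw [Finset.card_product] at hinj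
  have h1 : ((short k A).card : ℝ) * C.card ≤ ((A - A) + A).card := by exact_mod_cast hinj
  have h2 : ((short k A).card : ℝ) * ((cells k A).card / 9) ≤ (short k A).card * C.card :=
    mul_le_mul_of_nonneg_left hy (by positivity)
  have h3 : ((short k A).card : ℝ) * (cells k A).card ≤ 9 * ((A - A) + A).card := by
    have : ((short k A).card : ℝ) * ((cells k A).card / 9) =
        (short k A).card * (cells k A).card / 9 := by ring
    linarith
  exact_mod_cast h3

/-- Plünnecke-Ruzsa -/
theorem three_sum (A : Finset (ℝ × ℝ)) (hA : A.Nonempty) {L : ℝ}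
    (hL : ((A - A).card : ℝ) ≤ L * A.card) :
    (((A - A) + A).card : ℝ) ≤ L ^ 3 * A.card := by
  have hA0 : (0 : ℝ) < A.card := by exact_mod_cast hA.card_pos
  have h := Finset.pluennecke_ruzsa_inequality_nsmul_sub_nsmul_sub hA A 2 1
  have e : (2 • A - 1 • A : Finset (ℝ × ℝ)) = (A - A) + A := by
    rw [two_nsmul, one_nsmul, sub_add_eq_add_sub]
  rw [e] at h
  have h' : (((A - A) + A).card : ℝ) ≤ (((A - A).card : ℝ) / A.card) ^ (2 + 1) * A.card := by
    have h2 := (NNRat.cast_le (K := ℝ)).2 h
    push_cast at h2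
    exact h2
  refine h'.trans (mul_le_mul_of_nonneg_right ?_ hA0.le)
  refine pow_le_pow_left₀ (by positivity) ?_ 3
  rw [div_le_iff₀ hA0]
  exact hL

end Vale.Agent.P036.AE
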