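import Vale.Agent.P036.AE.Defs

/-!
P036: a popular short difference gives a small triangle.
-/

open scoped Pointwise

namespace Vale.Agent.P036.AE

theorem area_nonneg (p q r : ℝ × ℝ) : 0 ≤ area p q r := by
  unfold area
  positivity

theorem Delta_le {P : Finset (ℝ × ℝ)} {p q r : ℝ × ℝ} (hp : p ∈ P) (hq : q ∈ P) (hr : r ∈ P)
    (h1 : p ≠ q) (h2 : p ≠ r) (h3 : q ≠ r) : Delta P ≤ area p q r := by
  unfold Delta
  refine csInf_le ⟨0, ?_⟩ ⟨p, hp, q, hq, r, hr, h1, h2, h3, rfl⟩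
  rintro a ⟨p, -, q, -, r, -, -, -, -, rfl⟩
  exact area_nonneg p q r

/-- there is a triangle of area at most `a` -/
def Has (P : Finset (ℝ × ℝ)) (a : ℝ) : Prop :=
  ∃ p ∈ P, ∃ q ∈ P, ∃ r ∈ P, p ≠ q ∧ p ≠ r ∧ q ≠ r ∧ area p q r ≤ a

theorem Has.delta {P : Finset (ℝ × ℝ)} {a : ℝ} (h : Has P a) : Delta P ≤ a := by
  obtain ⟨p, hp, q, hq, r, hr, h1, h2, h3, h4⟩ := h
  exact (Delta_le hp hq hr h1 h2 h3).trans h4

theorem Has.mono {P Q : Finset (ℝ × ℝ)} {a b : ℝ} (h : Has P a) (hPQ : P ⊆ Q) (hab : a ≤ b) :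
    Has Q b := by
  obtain ⟨p, hp, q, hq, r, hr, h1, h2, h3, h4⟩ := h
  exact ⟨p, hPQ hp, q, hPQ hq, r, hPQ hr, h1, h2, h3, h4.trans hab⟩

/-- the trivial bound -/
theorem has_one {P : Finset (ℝ × ℝ)} (hP : InSquare P) (h3 : 3 ≤ P.card) : Has P 1 := by
  obtain ⟨p, q, r, hp, hq, hr, h1, h2, h3⟩ := Finset.two_lt_card_iff.1 (by omega : 2 < P.card)
  refine ⟨p, hp, q, hq, r, hr, h1, h2, h3, ?_⟩
  unfold area
  obtain ⟨⟨a1, a2⟩, a3, a4⟩ := hP p hp
  obtain ⟨⟨b1, b2⟩, b3, b4⟩ := hP q hq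
  obtain ⟨⟨c1, c2⟩, c3, c4⟩ := hP r hr
  have e1 : |q.1 - p.1| ≤ 1 := abs_le.2 ⟨by linarith, by linarith⟩
  have e2 : |r.2 - p.2| ≤ 1 := abs_le.2 ⟨by linarith, by linarith⟩
  have e3 : |q.2 - p.2| ≤ 1 := abs_le.2 ⟨by linarith, by linarith⟩
  have e4 : |r.1 - p.1| ≤ 1 := abs_le.2 ⟨by linarith, by linarith⟩
  have f1 : |(q.1 - p.1) * (r.2 - p.2)| ≤ 1 := by
    rw [abs_mul]
    exact mul_le_one₀ e1 (abs_nonneg _) e2
  have f2 : |(q.2 - p.2) * (r.1 - p.1)| ≤ 1 := by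
    rw [abs_mul]
    exact mul_le_one₀ e3 (abs_nonneg _) e4
  have f3 := abs_sub ((q.1 - p.1) * (r.2 - p.2)) ((q.2 - p.2) * (r.1 - p.1))
  linarith

/-- pigeonhole on an interval -/
theorem close_values {α : Type*} (T : Finset α) (f : α → ℝ) (l : ℝ) (h3 : 3 ≤ T.card)
    (hl : 0 < l) (hd : ∀ p ∈ T, ∀ q ∈ T, |f p - f q| ≤ l) :
    ∃ p ∈ T, ∃ q ∈ T, p ≠ q ∧ |f p - f q| ≤ 2 * l / T.card := by
  classical
  have hne : T.Nonempty := Finset.card_pos.1 (by omega)
  obtain ⟨a, ha, hmin⟩ := Finset.exists_min_image T f hne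
  set m : ℕ := T.card with hm
  have hm0 : (0 : ℝ) < m := by
    have : 0 < m := by omega
    exact_mod_cast this
  set g : α → ℕ := fun p => ⌊(f p - f a) * m / (2 * l)⌋₊ with hg
  have hmaps : ∀ p ∈ T, g p ∈ Finset.range (m / 2 + 1) := by
    intro p hp
    rw [Finset.mem_range, Nat.lt_succ_iff, hg]
    have h1 : (f p - f a) * m / (2 * l) ≤ (m : ℝ) / 2 := by
      have h2 : f p - f a ≤ l := (le_abs_self _).trans (hd p hp a ha)
      rw [div_le_iff₀ (by positivity)]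
      nlinarith
    have h3 : ⌊(f p - f a) * m / (2 * l)⌋₊ ≤ ⌊(m : ℝ) / 2⌋₊ := Nat.floor_le_floor h1
    refine le_trans h3 ?_
    rw [show ((m : ℝ) / 2) = ((m : ℝ) / ((2 : ℕ) : ℝ)) by norm_num, Nat.floor_div_eq_div]
  obtain ⟨p, hp, q, hq, hpq, hgpq⟩ := Finset.exists_ne_map_eq_of_card_lt_of_maps_to
    (t := Finset.range (m / 2 + 1)) (by rw [Finset.card_range]; omega) hmaps
  refine ⟨p, hp, q, hq, hpq, ?_⟩
  have hp0 : 0 ≤ (f p - f a) * m / (2 * l) := by
    have := hmin p hp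
    have h1 : 0 ≤ f p - f a := by linarith
    positivity
  have hq0 : 0 ≤ (f q - f a) * m / (2 * l) := by
    have := hmin q hq
    have h1 : 0 ≤ f q - f a := by linarith
    positivity
  have h1 : |(f p - f a) * m / (2 * l) - (f q - f a) * m / (2 * l)| < 1 := by
    rw [abs_lt]
    have a1 := Nat.floor_le hp0
    have a2 := Nat.lt_floor_add_one ((f p - f a) * m / (2 * l))
    have b1 := Nat.floor_le hq0
    have b2 := Nat.lt_floor_add_one ((f q - f a) * m / (2 * l))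
    have e : ((⌊(f p - f a) * m / (2 * l)⌋₊ : ℕ) : ℝ) =
        ((⌊(f q - f a) * m / (2 * l)⌋₊ : ℕ) : ℝ) := by
      have : g p = g q := hgpq
      rw [hg] at this
      exact_mod_cast this
    constructor <;> linarith
  have h2 : (f p - f a) * m / (2 * l) - (f q - f a) * m / (2 * l) =
      (f p - f q) * (m / (2 * l)) := by ring
  rw [h2, abs_mul, abs_of_pos (by positivity : (0 : ℝ) < m / (2 * l))] at h1
  rw [le_div_iff₀ hm0]
  have h4 : |f p - f q| * (m / (2 * l)) * (2 * l) = |f p - f q| * m := by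
    field_simp
  have h5 : |f p - f q| * (m / (2 * l)) * (2 * l) ≤ 1 * (2 * l) :=
    mul_le_mul_of_nonneg_right h1.le (by positivity)
  linarith

/-- a difference with many representations gives a small triangle -/
theorem has_of_popular {P : Finset (ℝ × ℝ)} (hP : InSquare P) {d : ℝ × ℝ} (hd : d ≠ 0) {h : ℝ}
    (hh : 0 < h) (h1 : |d.1| ≤ h) (h2 : |d.2| ≤ h)
    (h3 : 3 ≤ (P.filter (fun p => p + d ∈ P)).card) :
    Has P (2 * h / (P.filter (fun p => p + d ∈ P)).card) := by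
  classical
  set T := P.filter (fun p => p + d ∈ P) with hT
  set f : ℝ × ℝ → ℝ := fun p => d.1 * p.2 - d.2 * p.1 with hf
  obtain ⟨p, hp, q, hq, hpq, hclose⟩ := close_values T f (2 * h) h3 (by positivity) (by
    intro p hp q hq
    obtain ⟨⟨a1, a2⟩, a3, a4⟩ := hP p (Finset.mem_filter.1 hp).1
    obtain ⟨⟨b1, b2⟩, b3, b4⟩ := hP q (Finset.mem_filter.1 hq).1
    have e : f p - f q = d.1 * (p.2 - q.2) - d.2 * (p.1 - q.1) := by rw [hf]; ring
    rw [e]
    have g1 : |d.1 * (p.2 - q.2)| ≤ h * 1 := by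
      rw [abs_mul]
      exact mul_le_mul h1 (abs_le.2 ⟨by linarith, by linarith⟩) (abs_nonneg _) hh.le
    have g2 : |d.2 * (p.1 - q.1)| ≤ h * 1 := by
      rw [abs_mul]
      exact mul_le_mul h2 (abs_le.2 ⟨by linarith, by linarith⟩) (abs_nonneg _) hh.le
    have g3 := abs_sub (d.1 * (p.2 - q.2)) (d.2 * (p.1 - q.1))
    linarith)
  obtain ⟨hp1, hp2⟩ := Finset.mem_filter.1 hp
  obtain ⟨hq1, hq2⟩ := Finset.mem_filter.1 hq
  have hpd : p ≠ p + d := fun h => hd (by simpa using h.symm)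
  have hqd : q ≠ q + d := fun h => hd (by simpa using h.symm)
  have hm0 : (0 : ℝ) < T.card := by
    have : 0 < T.card := by omega
    exact_mod_cast this
  have hval : ∀ r : ℝ × ℝ, |d.1 * (r.2 - p.2) - d.2 * (r.1 - p.1)| ≤ 2 * (2 * h) / T.card →
      area p (p + d) r ≤ 2 * h / T.card := by
    intro r hr
    unfold area
    have e : ((p + d).1 - p.1) * (r.2 - p.2) - ((p + d).2 - p.2) * (r.1 - p.1) =
        d.1 * (r.2 - p.2) - d.2 * (r.1 - p.1) := by
      simp only [Prod.fst_add, Prod.snd_add]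
      ring
    rw [e, div_le_iff₀ (by norm_num : (0 : ℝ) < 2)]
    calc |d.1 * (r.2 - p.2) - d.2 * (r.1 - p.1)| ≤ 2 * (2 * h) / T.card := hr
      _ = 2 * h / T.card * 2 := by ring
  have hcl : |d.1 * (q.2 - p.2) - d.2 * (q.1 - p.1)| ≤ 2 * (2 * h) / T.card := by
    have e : d.1 * (q.2 - p.2) - d.2 * (q.1 - p.1) = -(f p - f q) := by rw [hf]; ring
    rw [e, abs_neg]
    exact hclose
  by_cases hqp : q = p + d
  · refine ⟨p, hp1, p + d, hp2, q + d, hq2, hpd, ?_, ?_, hval _ ?_⟩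
    · rw [hqp, add_assoc]
      intro h
      have h0 : d + d = 0 := by simpa using h.symm
      apply hd
      have h1 := congrArg Prod.fst h0
      have h2 := congrArg Prod.snd h0
      simp only [Prod.fst_add, Prod.snd_add, Prod.fst_zero, Prod.snd_zero] at h1 h2
      exact Prod.ext (by simp only [Prod.fst_zero]; linarith)
        (by simp only [Prod.snd_zero]; linarith)
    · rw [← hqp]
      exact hqd
    · have e : d.1 * ((q + d).2 - p.2) - d.2 * ((q + d).1 - p.1) =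
          d.1 * (q.2 - p.2) - d.2 * (q.1 - p.1) := by
        simp only [Prod.fst_add, Prod.snd_add]
        ring
      rw [e]
      exact hcl
  · exact ⟨p, hp1, p + d, hp2, q, hq1, hpd, hpq, fun h => hqp h.symm, hval _ hcl⟩

end Vale.Agent.P036.AE
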