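import Mathlib

/-!
P036, Heilbronn's triangle problem: definitions.
-/

namespace Vale.Agent.P036.AE

/-- the area of the triangle `p q r` -/
noncomputable def area (p q r : ℝ × ℝ) : ℝ :=
  |(q.1 - p.1) * (r.2 - p.2) - (q.2 - p.2) * (r.1 - p.1)| / 2

/-- the smallest area of a triangle with three distinct vertices in `P` -/
noncomputable def Delta (P : Finset (ℝ × ℝ)) : ℝ :=
  sInf {a : ℝ | ∃ p ∈ P, ∃ q ∈ P, ∃ r ∈ P, p ≠ q ∧ p ≠ r ∧ q ≠ r ∧ a = area p q r}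

/-- `P` lies in the unit square -/
def InSquare (P : Finset (ℝ × ℝ)) : Prop :=
  ∀ p ∈ P, (0 ≤ p.1 ∧ p.1 ≤ 1) ∧ (0 ≤ p.2 ∧ p.2 ≤ 1)

/-- the cell of a point in the grid of mesh `1 / k` -/
noncomputable def cell (k : ℕ) (p : ℝ × ℝ) : ℤ × ℤ := (⌊(k : ℝ) * p.1⌋, ⌊(k : ℝ) * p.2⌋)

/-- the pairs of distinct points in the same cell -/
noncomputable def near (k : ℕ) (P : Finset (ℝ × ℝ)) : Finset ((ℝ × ℝ) × (ℝ × ℝ)) :=
  (P ×ˢ P).filter (fun e => cell k e.1 = cell k e.2 ∧ e.1 ≠ e.2)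

/-- the difference vectors inside the cells -/
noncomputable def short (k : ℕ) (P : Finset (ℝ × ℝ)) : Finset (ℝ × ℝ) :=
  (near k P).image (fun e => e.2 - e.1)

end Vale.Agent.P036.AE
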