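import Vale.Agent.P036.AE.Main

/-! P036: the final theorem. -/

namespace Vale.Agent.P036.AE

theorem final :
    (∀ (P : Finset (ℝ × ℝ)) (K : ℝ), InSquare P → 3 ≤ P.card → 1 ≤ K →
      (P.card : ℝ) ^ 3 ≤ K * (Finset.addEnergy P P : ℝ) →
      Delta P ≤ 2 ^ 66 * K ^ 20 * (P.card : ℝ) ^ (-(3 / 2) : ℝ)) ∧
    (∀ ε : ℝ, 0 < ε → ∃ δ : ℝ, 0 < δ ∧ ∃ n₀ : ℕ, ∀ P : Finset (ℝ × ℝ), InSquare P →
      n₀ ≤ P.card → (P.card : ℝ) ^ (3 - δ) ≤ (Finset.addEnergy P P : ℝ) →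
      Delta P ≤ (P.card : ℝ) ^ (-(3 / 2) + ε)) ∧
    (∀ (P : Finset (ℝ × ℝ)) (k M : ℕ), InSquare P → 0 < k → 2 * (k + 1) ^ 2 ≤ P.card →
      (short k P).card ≤ M → 3 * M ≤ P.card →
      Delta P ≤ 16 * k * M / (P.card : ℝ) ^ 2) := by
  have h1 : ∀ (P : Finset (ℝ × ℝ)) (K : ℝ), InSquare P → 3 ≤ P.card → 1 ≤ K →
      (P.card : ℝ) ^ 3 ≤ K * (Finset.addEnergy P P : ℝ) →
      Delta P ≤ 2 ^ 66 * K ^ 20 * (P.card : ℝ) ^ (-(3 / 2) : ℝ) := by
    intro P K hP h3 hK hE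
    refine (has_of_energy hP h3 hK hE).delta.trans (le_of_eq ?_)
    have hn0 : (0 : ℝ) < P.card := by
      have : 0 < P.card := by omega
      exact_mod_cast this
    rw [div_eq_mul_inv]
    congr 1
    rw [Real.rpow_neg hn0.le]
    congr 1
    rw [show (3 / 2 : ℝ) = 1 + 1 / 2 by norm_num, Real.rpow_add hn0, Real.rpow_one,
      Real.sqrt_eq_rpow]
  refine ⟨h1, ?_, fun P k M hP hk hn hM hM3 => few hP hk hn hM hM3⟩
  intro ε hε
  refine ⟨ε / 40, by positivity, max 3 (⌈((2 : ℝ) ^ (66 : ℕ)) ^ (2 / ε)⌉₊ + 1), ?_⟩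
  intro P hP hn hE
  have hn3 : 3 ≤ P.card := (le_max_left _ _).trans hn
  have hn0 : (0 : ℝ) < P.card := by
    have : 0 < P.card := by omega
    exact_mod_cast this
  have hn1 : (1 : ℝ) ≤ P.card := by
    have : 1 ≤ P.card := by omega
    exact_mod_cast this
  have hbig : ((2 : ℝ) ^ (66 : ℕ)) ≤ (P.card : ℝ) ^ (ε / 2) := by
    have h2 : ((2 : ℝ) ^ (66 : ℕ)) ^ (2 / ε) ≤ P.card := by
      refine (Nat.le_ceil _).trans ?_
      have : ⌈((2 : ℝ) ^ (66 : ℕ)) ^ (2 / ε)⌉₊ ≤ P.card := by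
        have := (le_max_right _ _).trans hn
        omega
      exact_mod_cast this
    have h3 := Real.rpow_le_rpow (by positivity) h2 (by positivity : 0 ≤ ε / 2)
    rw [← Real.rpow_mul (by positivity)] at h3
    have e : 2 / ε * (ε / 2) = 1 := by field_simp
    rw [e, Real.rpow_one] at h3
    exact h3
  have hK : 1 ≤ (P.card : ℝ) ^ (ε / 40) := Real.one_le_rpow hn1 (by positivity)
  have hE' : (P.card : ℝ) ^ 3 ≤ (P.card : ℝ) ^ (ε / 40) * (Finset.addEnergy P P : ℝ) := by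
    have e : (P.card : ℝ) ^ 3 = (P.card : ℝ) ^ (ε / 40) * (P.card : ℝ) ^ (3 - ε / 40) := by
      rw [← Real.rpow_add hn0, ← Real.rpow_natCast]
      congr 1
      push_cast
      ring
    rw [e]
    exact mul_le_mul_of_nonneg_left hE (by positivity)
  refine (h1 P _ hP hn3 hK hE').trans ?_
  have e1 : ((P.card : ℝ) ^ (ε / 40)) ^ 20 = (P.card : ℝ) ^ (ε / 2) := by
    rw [← Real.rpow_natCast, ← Real.rpow_mul hn0.le]
    congr 1
    push_cast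
    ring
  rw [e1]
  calc (2 : ℝ) ^ 66 * (P.card : ℝ) ^ (ε / 2) * (P.card : ℝ) ^ (-(3 / 2) : ℝ) ≤
        (P.card : ℝ) ^ (ε / 2) * (P.card : ℝ) ^ (ε / 2) * (P.card : ℝ) ^ (-(3 / 2) : ℝ) := by
        refine mul_le_mul_of_nonneg_right ?_ (by positivity)
        exact mul_le_mul_of_nonneg_right hbig (by positivity)
    _ = (P.card : ℝ) ^ (-(3 / 2) + ε) := by
        rw [← Real.rpow_add hn0, ← Real.rpow_add hn0]
        congr 1
        ring

end Vale.Agent.P036.AE
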