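import Vale.Agent.P036.AE.Cells
import Vale.Agent.P041.BSG

/-!
P036: sets with large additive energy have small triangles.
-/

open scoped Pointwise

namespace Vale.Agent.P036.AE

/-- few short differences -/
theorem few {P : Finset (ℝ × ℝ)} (hP : InSquare P) {k M : ℕ} (hk : 0 < k)
    (hn : 2 * (k + 1) ^ 2 ≤ P.card) (hM : (short k P).card ≤ M) (hM3 : 3 * M ≤ P.card) :
    Delta P ≤ 16 * k * M / (P.card : ℝ) ^ 2 := by
  have hk0 : (0 : ℝ) < k := by exact_mod_cast hk
  have hne : P.Nonempty := Finset.card_pos.1 (by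
    have : 0 < (k + 1) ^ 2 := by positivity
    omega)
  have hn0 : (0 : ℝ) < P.card := by exact_mod_cast hne.card_pos
  have hcl := cells_le (k := k) hP
  have hc : 2 * (cells k P).card ≤ P.card := by omega
  -- `M` is positive
  have hM0 : 0 < M := by
    by_contra hcon
    have hM0 : M = 0 := by omega
    have h0 : (short k P).card = 0 := by omega
    have h1 : near k P = ∅ := by
      unfold short at h0
      rw [Finset.card_eq_zero, Finset.image_eq_empty] at h0
      exact h0
    have h2 := near_count k P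
    rw [h1, Finset.card_empty, Nat.zero_add] at h2
    have h3 : 0 < P.card := hne.card_pos
    nlinarith
  have hM0' : (0 : ℝ) < M := by exact_mod_cast hM0
  have hcM : 2 * ((cells k P).card : ℝ) * (short k P).card ≤ 2 * (k + 1) ^ 2 * M := by
    have h1 : ((cells k P).card : ℝ) ≤ (k + 1) ^ 2 := by exact_mod_cast hcl
    have h2 : ((short k P).card : ℝ) ≤ M := by exact_mod_cast hM
    have h3 : ((cells k P).card : ℝ) * (short k P).card ≤ (k + 1) ^ 2 * M :=
      mul_le_mul h1 h2 (by positivity) (by positivity)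
    linarith
  set b : ℝ := (P.card : ℝ) ^ 2 / (2 * (k + 1) ^ 2 * M) with hb
  have hb3 : 3 ≤ b := by
    rw [hb, le_div_iff₀ (by positivity)]
    have h1 : (2 : ℝ) * (k + 1) ^ 2 ≤ P.card := by exact_mod_cast hn
    have h2 : (3 : ℝ) * M ≤ P.card := by exact_mod_cast hM3
    calc (3 : ℝ) * (2 * (k + 1) ^ 2 * M) = (2 * (k + 1) ^ 2) * (3 * M) := by ring
      _ ≤ (P.card : ℝ) * P.card := mul_le_mul h1 h2 (by positivity) (by positivity)
      _ = (P.card : ℝ) ^ 2 := by ring
  have hHas := has_of_few hP hk hc hb3 (by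
    calc 2 * ((cells k P).card : ℝ) * (short k P).card * b ≤ 2 * (k + 1) ^ 2 * M * b :=
          mul_le_mul_of_nonneg_right hcM (by positivity)
      _ = (P.card : ℝ) ^ 2 := by
          rw [hb]
          field_simp) hne
  refine hHas.delta.trans ?_
  have e : 2 / ((k : ℝ) * b) = 4 * (k + 1) ^ 2 * M / (k * (P.card : ℝ) ^ 2) := by
    rw [hb]
    field_simp
    ring
  rw [e, div_le_div_iff₀ (by positivity) (by positivity)]
  have h1 : (k + 1 : ℝ) ^ 2 ≤ 4 * k ^ 2 := by
    have : (1 : ℝ) ≤ k := by exact_mod_cast hk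
    nlinarith
  calc 4 * ((k : ℝ) + 1) ^ 2 * M * (P.card : ℝ) ^ 2 =
        ((k : ℝ) + 1) ^ 2 * (4 * M * (P.card : ℝ) ^ 2) := by ring
    _ ≤ (4 * k ^ 2) * (4 * M * (P.card : ℝ) ^ 2) := mul_le_mul_of_nonneg_right h1 (by positivity)
    _ = 16 * k * M * (k * (P.card : ℝ) ^ 2) := by ring

/-- the bound for a set with few differences -/
theorem has_of_doubling {A : Finset (ℝ × ℝ)} (hA : InSquare A) {L : ℝ} (hL : 1 ≤ L)
    (hD : ((A - A).card : ℝ) ≤ L * A.card) (hN : 54 * L ^ 3 ≤ (A.card : ℝ)) :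
    Has A (144 * L ^ 3 / (A.card * √(A.card : ℝ))) := by
  have hL0 : 0 < L := by linarith
  have hL3 : 1 ≤ L ^ 3 := one_le_pow₀ hL
  have hN54 : (54 : ℝ) ≤ A.card := by linarith
  have hN0 : (0 : ℝ) < A.card := by linarith
  have hne : A.Nonempty := Finset.card_pos.1 (by exact_mod_cast hN0)
  set y : ℝ := √(A.card : ℝ) with hy
  have hy2 : y ^ 2 = A.card := Real.sq_sqrt hN0.le
  have hy0 : 0 < y := Real.sqrt_pos.2 hN0
  have hy7 : 7 ≤ y := by
    rw [hy]
    exact Real.le_sqrt_of_sq_le (by linarith)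
  -- the scale
  set j : ℕ := ⌊y * (7 / 10)⌋₊ with hj
  have hj1 : (j : ℝ) ≤ y * (7 / 10) := Nat.floor_le (by positivity)
  have hj2 : y * (7 / 10) < j + 1 := Nat.lt_floor_add_one _
  have hj4 : 3 ≤ j := by
    by_contra hcon
    have : j + 1 ≤ 3 := by omega
    have : (j : ℝ) + 1 ≤ 3 := by exact_mod_cast this
    linarith
  obtain ⟨k, hk⟩ : ∃ k, j = k + 1 := ⟨j - 1, by omega⟩
  have hk0 : 0 < k := by omega
  have hk0' : (0 : ℝ) < k := by exact_mod_cast hk0
  have hkj : (k : ℝ) + 1 = j := by rw [hk]; push_cast; ring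
  have hky : y / 4 ≤ k := by linarith
  have hcl := cells_le (k := k) hA
  have hc : 2 * (cells k A).card ≤ A.card := by
    have h1 : ((cells k A).card : ℝ) ≤ ((k : ℝ) + 1) ^ 2 := by exact_mod_cast hcl
    have h2 : ((k : ℝ) + 1) ^ 2 ≤ (y * (7 / 10)) ^ 2 := by
      rw [hkj]
      exact pow_le_pow_left₀ (by positivity) hj1 2
    have h3 : 2 * ((cells k A).card : ℝ) ≤ A.card := by nlinarith
    exact_mod_cast h3
  set b : ℝ := (A.card : ℝ) / (18 * L ^ 3) with hb
  have hb3 : 3 ≤ b := by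
    rw [hb, le_div_iff₀ (by positivity)]
    linarith
  have hb0 : 0 < b := by linarith
  have hprod : ((short k A).card : ℝ) * (cells k A).card ≤ 9 * (L ^ 3 * A.card) := by
    have h1 : ((short k A).card : ℝ) * (cells k A).card ≤ 9 * ((A - A) + A).card := by
      exact_mod_cast short_mul_cells A hk0
    have h2 := three_sum A hne hD
    linarith
  have hHas := has_of_few hA hk0 hc hb3 (by
    calc 2 * ((cells k A).card : ℝ) * (short k A).card * b =
          2 * (((short k A).card : ℝ) * (cells k A).card) * b := by ring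
      _ ≤ 2 * (9 * (L ^ 3 * A.card)) * b := by
          refine mul_le_mul_of_nonneg_right ?_ hb0.le
          linarith
      _ = (A.card : ℝ) ^ 2 := by
          rw [hb]
          field_simp
          ring) hne
  refine hHas.mono (Finset.Subset.refl _) ?_
  have h1 : y / 4 * b ≤ k * b := mul_le_mul_of_nonneg_right hky hb0.le
  calc 2 / ((k : ℝ) * b) ≤ 2 / (y / 4 * b) :=
        div_le_div_of_nonneg_left (by norm_num) (by positivity) h1
    _ = 144 * L ^ 3 / (A.card * y) := by
        rw [hb]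
        field_simp
        ring

/-- **large additive energy gives a small triangle** -/
theorem has_of_energy {P : Finset (ℝ × ℝ)} (hP : InSquare P) (h3 : 3 ≤ P.card) {K : ℝ}
    (hK : 1 ≤ K) (hE : (P.card : ℝ) ^ 3 ≤ K * (Finset.addEnergy P P : ℝ)) :
    Has P (2 ^ 66 * K ^ 20 / (P.card * √(P.card : ℝ))) := by
  have hK0 : 0 < K := by linarith
  obtain ⟨A, hAP, hAn, hAD⟩ := Vale.Agent.P041.BSG.bsg_aux P K hK hE
  have hA : InSquare A := fun p hp => hP p (hAP hp)
  have hn3 : (3 : ℝ) ≤ P.card := by exact_mod_cast h3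
  have hn0 : (0 : ℝ) < P.card := by linarith
  set x : ℝ := √(P.card : ℝ) with hx
  have hx2 : x ^ 2 = P.card := Real.sq_sqrt hn0.le
  have hx0 : 0 < x := Real.sqrt_pos.2 hn0
  set L : ℝ := 4096 * K ^ 4 with hL
  have hK4 : 1 ≤ K ^ 4 := one_le_pow₀ hK
  have hL1 : 1 ≤ L := by rw [hL]; linarith
  have hL3 : L ^ 3 = 2 ^ 36 * K ^ 12 := by rw [hL]; ring
  by_cases hN : 54 * L ^ 3 ≤ (A.card : ℝ)
  · have hHas := has_of_doubling hA hL1 hAD hN
    refine hHas.mono hAP ?_
    have hA0 : (0 : ℝ) < A.card := by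
      have : 0 < L ^ 3 := by positivity
      linarith
    set y : ℝ := √(A.card : ℝ) with hy
    have hy2 : y ^ 2 = A.card := Real.sq_sqrt hA0.le
    have hy0 : 0 < y := Real.sqrt_pos.2 hA0
    have hxy : x ≤ 2 * K * y := by
      have h1 : x ^ 2 ≤ (2 * K * y) ^ 2 := by
        rw [hx2, mul_pow, hy2]
        have h2 : K * 1 ≤ K * K := mul_le_mul_of_nonneg_left hK hK0.le
        calc (P.card : ℝ) ≤ 4 * K * A.card := hAn
          _ = 4 * (K * 1) * A.card := by ring
          _ ≤ 4 * (K * K) * A.card := by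
              refine mul_le_mul_of_nonneg_right ?_ hA0.le
              linarith
          _ = (2 * K) ^ 2 * A.card := by ring
      exact (pow_le_pow_iff_left₀ hx0.le (by positivity) two_ne_zero).1 h1
    have hprod : (P.card : ℝ) * x ≤ 8 * K ^ 2 * (A.card * y) := by
      calc (P.card : ℝ) * x ≤ (4 * K * A.card) * (2 * K * y) :=
            mul_le_mul hAn hxy hx0.le (by positivity)
        _ = _ := by ring
    rw [div_le_div_iff₀ (by positivity) (by positivity), hL3]
    have hK14 : K ^ 14 ≤ K ^ 20 := pow_le_pow_right₀ hK (by norm_num)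
    calc 144 * (2 ^ 36 * K ^ 12) * (P.card * x) ≤
          144 * (2 ^ 36 * K ^ 12) * (8 * K ^ 2 * (A.card * y)) :=
          mul_le_mul_of_nonneg_left hprod (by positivity)
      _ = (1152 * 2 ^ 36) * K ^ 14 * (A.card * y) := by ring
      _ ≤ 2 ^ 66 * K ^ 20 * (A.card * y) := by
          refine mul_le_mul_of_nonneg_right ?_ (by positivity)
          exact mul_le_mul (by norm_num) hK14 (by positivity) (by positivity)
  · push Not at hN
    refine (has_one hP h3).mono (Finset.Subset.refl _) ?_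
    rw [le_div_iff₀ (by positivity), one_mul]
    have h1 : (P.card : ℝ) ≤ 2 ^ 44 * K ^ 13 := by
      calc (P.card : ℝ) ≤ 4 * K * A.card := hAn
        _ ≤ 4 * K * (54 * L ^ 3) := mul_le_mul_of_nonneg_left hN.le (by positivity)
        _ = (216 * 2 ^ 36) * K ^ 13 := by rw [hL3]; ring
        _ ≤ 2 ^ 44 * K ^ 13 := mul_le_mul_of_nonneg_right (by norm_num) (by positivity)
    have h2 : x ≤ 2 ^ 22 * K ^ 7 := by
      have h4 : x ^ 2 ≤ (2 ^ 22 * K ^ 7) ^ 2 := by
        rw [hx2]
        calc (P.card : ℝ) ≤ 2 ^ 44 * K ^ 13 := h1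
          _ ≤ 2 ^ 44 * K ^ 14 :=
              mul_le_mul_of_nonneg_left (pow_le_pow_right₀ hK (by norm_num)) (by positivity)
          _ = _ := by ring
      exact (pow_le_pow_iff_left₀ hx0.le (by positivity) two_ne_zero).1 h4
    calc (P.card : ℝ) * x ≤ (2 ^ 44 * K ^ 13) * (2 ^ 22 * K ^ 7) :=
          mul_le_mul h1 h2 hx0.le (by positivity)
      _ = 2 ^ 66 * K ^ 20 := by ring

end Vale.Agent.P036.AE
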